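import Vale.Agent.P032.H892.Cross

/-!
# P032: two coloured zones (wild frame `Irr U T`)

* `two_pt` (2C) : `|y - t| = 1`, both palettes inside `{i, j}` : one of them is `{i}`, the other one is `{j}`.
* `curtain` (CUR) : `K` preconnected, palettes inside `{i, j}` on `K`, every point of `K` has at distance one a point
  with palette inside `{i, j}` : the palette is constant on `K`, `{i}` or `{j}`; `curtain_diam`, `curtain_far`.
* `curtain_shift` : two connected sets which differ by a unit translation.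
* `curtain_cut` : the partners come from a connected set which meets every unit circle about a point of `K`.
* `swap_arc`, `swap_only`, `not_swap` (SWAP) : `c, d ∈ T V`, `|V - y| = 1`, `T y ⊆ {c, d}` : `|T V| ≥ 4`, near `y` there
  is an arc of `S(V)` with palette exactly `{c, d}`, and no point at distance one from a point of this arc other than
  `V` and its mirror image has the colour `c` or `d`.
* `solid_of_not_swap` : along a connected set on which every palette meets `{c, d}` and never contains both, the colour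
  is constant.
-/

open Set Filter Topology Metric

noncomputable section

namespace Vale.Agent.P032.H850

open Vale.Agent.P032.Six

variable {k : ℕ} {U : Fin k → Set ℂ} {T : ℂ → Set (Fin k)}

theorem pair_le (i j : Fin k) : ({i, j} : Set (Fin k)).ncard ≤ 2 :=
  (Set.ncard_insert_le i {j}).trans (by rw [Set.ncard_singleton])

/-- a set of at most two colours -/
theorem ncard_pair {s : Set (Fin k)} {i j : Fin k} (hs : s ⊆ {i, j}) : s.ncard ≤ 2 :=
  (Set.ncard_le_ncard hs (Set.toFinite _)).trans (pair_le i j)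

/-- **(2C)** at a unit pair of points with palettes inside `{i, j}` one palette is `{i}`, the other one `{j}` -/
theorem two_pt (h : Irr U T) {i j : Fin k} {y t : ℂ} (hyt : dist y t = 1) (hy : T y ⊆ {i, j}) (ht : T t ⊆ {i, j}) :
    (T y = {i} ∧ T t = {j}) ∨ (T y = {j} ∧ T t = {i}) := by
  obtain ⟨p, hp, hpt⟩ := h.not_sub' hyt ((ncard_pair ht).trans (by norm_num))
  obtain ⟨q, hq, hqy⟩ := h.not_sub' (by rw [dist_comm]; exact hyt) ((ncard_pair hy).trans (by norm_num))
  have key : ∀ {s s' : Set (Fin k)} {p q : Fin k}, s ⊆ {i, j} → p ∈ s → q ∉ s → (p = i ∧ q = j ∨ p = j ∧ q = i) →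
      s = {p} := by
    intro s s' p q hs hp hq hpq
    refine Subset.antisymm (fun m hm => ?_) (singleton_subset_iff.2 hp)
    rcases hpq with ⟨rfl, rfl⟩ | ⟨rfl, rfl⟩
    · rcases hs hm with h1 | h1
      · exact h1
      · exact absurd (h1 ▸ hm) hq
    · rcases hs hm with h1 | h1
      · exact absurd (h1 ▸ hm) hq
      · exact h1
  have hne : p ≠ q := fun e => hpt (e ▸ hq)
  rcases hy hp with rfl | hpj
  · rcases ht hq with h1 | h1
    · exact absurd h1.symm hne
    · have h1 : q = j := h1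
      subst h1
      exact Or.inl ⟨key (s' := T t) hy hp hqy (Or.inl ⟨rfl, rfl⟩), key (s' := T y) ht hq hpt (Or.inr ⟨rfl, rfl⟩)⟩
  · have hpj : p = j := hpj
    subst hpj
    rcases ht hq with h1 | h1
    · have h1 : q = i := h1
      subst h1
      exact Or.inr ⟨key (s' := T t) hy hp hqy (Or.inr ⟨rfl, rfl⟩), key (s' := T y) ht hq hpt (Or.inl ⟨rfl, rfl⟩)⟩
    · exact absurd h1.symm hne

/-- a connected set whose palettes are singletons inside `{i, j}` has a constant palette -/
theorem const_of_single (h : Irr U T) {i j : Fin k} {K : Set ℂ} (hK : IsPreconnected K)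
    (h1 : ∀ x ∈ K, T x = {i} ∨ T x = {j}) : (∀ x ∈ K, T x = {i}) ∨ ∀ x ∈ K, T x = {j} := by
  rcases eq_or_ne i j with rfl | hij
  · exact Or.inl fun x hx => (h1 x hx).elim id id
  by_contra hcon
  push Not at hcon
  obtain ⟨⟨x, hx, hxi⟩, y, hy, hyj⟩ := hcon
  have hx' : T x = {j} := (h1 x hx).resolve_left hxi
  have hy' : T y = {i} := (h1 y hy).resolve_right hyj
  obtain ⟨w, hw, hwi, hwj⟩ := isPreconnected_closed_iff.1 hK {x | i ∈ T x} {x | j ∈ T x} (h.closed i) (h.closed j)
    (fun w hw => by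
      rcases h1 w hw with h2 | h2
      · left; change i ∈ T w; rw [h2]; rfl
      · right; change j ∈ T w; rw [h2]; rfl)
    ⟨y, hy, by change i ∈ T y; rw [hy']; rfl⟩ ⟨x, hx, by change j ∈ T x; rw [hx']; rfl⟩
  have hwi : i ∈ T w := hwi
  have hwj : j ∈ T w := hwj
  rcases h1 w hw with h2 | h2
  · rw [h2] at hwj; exact hij (mem_singleton_iff.1 hwj).symm
  · rw [h2] at hwi; exact hij (mem_singleton_iff.1 hwi)

/-- **(CUR)** a connected two coloured set, every point of which has a two coloured point at distance one, is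
one coloured -/
theorem curtain (h : Irr U T) {i j : Fin k} {K : Set ℂ} (hK : IsPreconnected K) (hKT : ∀ x ∈ K, T x ⊆ {i, j})
    (hp : ∀ x ∈ K, ∃ y, dist x y = 1 ∧ T y ⊆ {i, j}) : (∀ x ∈ K, T x = {i}) ∨ ∀ x ∈ K, T x = {j} :=
  const_of_single h hK fun x hx => by
    obtain ⟨y, hy, hyT⟩ := hp x hx
    rcases two_pt h hy (hKT x hx) hyT with h1 | h1
    · exact Or.inl h1.1
    · exact Or.inr h1.1

/-- a connected set crosses the unit circle about `v` as soon as it has a point inside and a point outside -/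
theorem meets {L : Set ℂ} (hL : IsPreconnected L) {v p q : ℂ} (hp : p ∈ L) (hq : q ∈ L) (h1 : dist p v ≤ 1)
    (h2 : 1 ≤ dist q v) : ∃ y ∈ L, dist v y = 1 := by
  have h3 : IsPreconnected ((fun x => dist x v) '' L) := hL.image _ (by fun_prop)
  obtain ⟨y, hy, hy1⟩ := h3.Icc_subset (mem_image_of_mem _ hp) (mem_image_of_mem _ hq) ⟨h1, h2⟩
  exact ⟨y, hy, by rw [dist_comm]; exact hy1⟩

/-- **(CUR)**, the curtain is a connected set `L` with palettes inside `{i, j}` which meets every unit circle about a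
point of `K` -/
theorem curtain_cut (h : Irr U T) {i j : Fin k} {K L : Set ℂ} (hK : IsPreconnected K) (hL : IsPreconnected L)
    (hKT : ∀ x ∈ K, T x ⊆ {i, j}) (hLT : ∀ x ∈ L, T x ⊆ {i, j})
    (hcut : ∀ x ∈ K, (∃ p ∈ L, dist p x ≤ 1) ∧ ∃ q ∈ L, 1 ≤ dist q x) :
    (∀ x ∈ K, T x = {i}) ∨ ∀ x ∈ K, T x = {j} :=
  curtain h hK hKT fun x hx => by
    obtain ⟨⟨p, hp, hp1⟩, q, hq, hq1⟩ := hcut x hx
    obtain ⟨y, hy, hy1⟩ := meets hL hp hq hp1 hq1
    exact ⟨y, hy1, hLT y hy⟩

/-- **(CUR)**, translation form: `K` and `K + v`, `|v| = 1`, both with palettes inside `{i, j}` : one of them is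
`i`-coloured, the other one `j`-coloured -/
theorem curtain_shift (h : Irr U T) {i j : Fin k} {K : Set ℂ} (hK : IsPreconnected K) {v : ℂ} (hv : ‖v‖ = 1)
    (hKT : ∀ x ∈ K, T x ⊆ {i, j}) (hKT' : ∀ x ∈ K, T (x + v) ⊆ {i, j}) :
    (∀ x ∈ K, T x = {i} ∧ T (x + v) = {j}) ∨ ∀ x ∈ K, T x = {j} ∧ T (x + v) = {i} := by
  have hd : ∀ x : ℂ, dist x (x + v) = 1 := fun x => by
    rw [dist_eq_norm, ← hv, ← norm_neg v]; congr 1; ring
  rcases eq_or_ne i j with rfl | hij
  · left
    intro x hx
    rcases two_pt h (hd x) (hKT x hx) (hKT' x hx) with h1 | h1 <;> exact h1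
  rcases curtain h hK hKT fun x hx => ⟨x + v, hd x, hKT' x hx⟩ with h1 | h1
  · left
    intro x hx
    refine ⟨h1 x hx, ?_⟩
    rcases two_pt h (hd x) (hKT x hx) (hKT' x hx) with h2 | h2
    · exact h2.2
    · exact absurd (singleton_eq_singleton_iff.1 ((h1 x hx).symm.trans h2.1)) hij
  · right
    intro x hx
    refine ⟨h1 x hx, ?_⟩
    rcases two_pt h (hd x) (hKT x hx) (hKT' x hx) with h2 | h2
    · exact absurd (singleton_eq_singleton_iff.1 ((h1 x hx).symm.trans h2.1)) hij.symm
    · exact h2.2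

/-- a connected set of points with two given colours has no unit pair of points: it has diameter at most one, and if it
is two coloured and contains a unit pair, then it is one coloured and the unit pair has different colours -/
theorem no_unit_of_curtain (h : Irr U T) {i j : Fin k} (hij : i ≠ j) {K : Set ℂ} (hK : IsPreconnected K)
    (hKT : ∀ x ∈ K, T x ⊆ {i, j}) (hp : ∀ x ∈ K, ∃ y, dist x y = 1 ∧ T y ⊆ {i, j}) {x y : ℂ} (hx : x ∈ K)
    (hy : y ∈ K) : dist x y ≠ 1 := by
  intro hxy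
  rcases curtain h hK hKT hp with h1 | h1
  · rcases two_pt h hxy (hKT x hx) (hKT y hy) with h2 | h2
    · exact hij (singleton_eq_singleton_iff.1 ((h1 y hy).symm.trans h2.2))
    · exact hij (singleton_eq_singleton_iff.1 ((h1 x hx).symm.trans h2.1))
  · rcases two_pt h hxy (hKT x hx) (hKT y hy) with h2 | h2
    · exact hij (singleton_eq_singleton_iff.1 ((h1 x hx).symm.trans h2.1)).symm
    · exact hij (singleton_eq_singleton_iff.1 ((h1 y hy).symm.trans h2.2)).symm

/-- **(SWAP)**, first part: `c, d ∈ T V`, a point `y` at distance one with palette inside `{c, d}`: `V` has at least four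
colours, and near `y` there is an arc of `S(V)` with the palette `{c, d}` -/
theorem swap_arc (h : Irr U T) {c d : Fin k} {V y : ℂ} (hc : c ∈ T V) (hd : d ∈ T V) (hyV : dist y V = 1)
    (hy : T y ⊆ {c, d}) {N : Set ℂ} (hN : N ∈ 𝓝 y) :
    4 ≤ (T V).ncard ∧ ∃ q ∈ N, dist q V = 1 ∧ T q = {c, d} ∧ ∀ᶠ q' in 𝓝[sphere V 1] q, T q' = {c, d} := by
  have hsub : T y ⊆ T V := hy.trans (by
    rintro m (rfl | hm)
    · exact hc
    · rw [mem_singleton_iff.1 hm]; exact hd)
  obtain ⟨q, hqN, hqV, hq1, hq2, hq3, hq4⟩ := h.arc_of_sub hyV hsub hN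
  have hq5 : T q = {c, d} := Set.eq_of_subset_of_ncard_le (hq2.trans hy)
    ((pair_le c d).trans hq3) (Set.toFinite _)
  refine ⟨?_, q, hqN, hqV, hq5, ?_⟩
  · have := Set.ncard_sdiff (hq2.trans hsub) (Set.toFinite _)
    omega
  · rw [← hq5]; exact hq1

/-- **(SWAP)**, second part: no other point at distance one from a point of such an arc carries `c` or `d`, except the
mirror image of `V` -/
theorem swap_only (h : Irr U T) {c d : Fin k} {V q t : ℂ} (hqV : dist q V = 1)
    (hq : ∀ᶠ q' in 𝓝[sphere V 1] q, T q' = {c, d}) (htq : dist q t = 1) (ht : t ≠ V) (ht' : t + V ≠ 2 * q) :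
    c ∉ T t ∧ d ∉ T t := by
  constructor
  · exact H892.off_arc h hqV (hq.mono fun q' hq' => by rw [hq']; exact Or.inl rfl) htq ht ht'
  · exact H892.off_arc h hqV (hq.mono fun q' hq' => by rw [hq']; exact Or.inr rfl) htq ht ht'

/-- **(SWAP)**, clause form: `T y ⊆ {c, d}`, `|V - y| = 1`, and for the points `q` of `S(V)` near `y` some point `t` at
distance one from `q`, not on the line `V q`, has the colour `c` or `d`: then `V` does not carry both colours -/
theorem not_swap (h : Irr U T) {c d : Fin k} {V y : ℂ} (hyV : dist y V = 1) (hy : T y ⊆ {c, d})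
    (ht : ∀ᶠ q in 𝓝[sphere V 1] y, ∃ t, dist q t = 1 ∧ t ≠ V ∧ t + V ≠ 2 * q ∧ (c ∈ T t ∨ d ∈ T t)) :
    ¬ (c ∈ T V ∧ d ∈ T V) := by
  rintro ⟨hc, hd⟩
  obtain ⟨N, hN, hNt⟩ := mem_nhdsWithin_iff_exists_mem_nhds_inter.1 ht
  obtain ⟨-, q, hqN, hqV, -, hq⟩ := swap_arc h hc hd hyV hy hN
  obtain ⟨t, h1, h2, h3, h4⟩ := hNt ⟨hqN, hqV⟩
  obtain ⟨h5, h6⟩ := swap_only h hqV hq h1 h2 h3
  rcases h4 with h4 | h4
  · exact h5 h4
  · exact h6 h4

/-- the same with at most three colours at `V` -/
theorem not_swap_three (h : Irr U T) {c d : Fin k} {V y : ℂ} (hyV : dist y V = 1) (hy : T y ⊆ {c, d})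
    (h3 : (T V).ncard ≤ 3) : ¬ (c ∈ T V ∧ d ∈ T V) := by
  rintro ⟨hc, hd⟩
  have := (swap_arc h hc hd hyV hy univ_mem).1
  omega

/-- **(SWAP)**, solid form: on a connected set every palette meets `{c, d}` and no palette contains both colours: one of
the two colours is carried by the whole set -/
theorem solid_of_not_swap (h : Irr U T) {c d : Fin k} {K : Set ℂ} (hK : IsPreconnected K)
    (h1 : ∀ x ∈ K, c ∈ T x ∨ d ∈ T x) (h2 : ∀ x ∈ K, ¬ (c ∈ T x ∧ d ∈ T x)) :
    (∀ x ∈ K, c ∈ T x ∧ d ∉ T x) ∨ ∀ x ∈ K, d ∈ T x ∧ c ∉ T x := by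
  by_contra hcon
  push Not at hcon
  obtain ⟨⟨x, hx, hx1⟩, y, hy, hy1⟩ := hcon
  have hxd : d ∈ T x := by
    rcases h1 x hx with h3 | h3
    · exact hx1 h3
    · exact h3
  have hyc : c ∈ T y := by
    rcases h1 y hy with h3 | h3
    · exact h3
    · exact hy1 h3
  obtain ⟨w, hw, hwc, hwd⟩ := isPreconnected_closed_iff.1 hK {x | c ∈ T x} {x | d ∈ T x} (h.closed c) (h.closed d)
    (fun w hw => h1 w hw) ⟨y, hy, hyc⟩ ⟨x, hx, hxd⟩
  exact h2 w hw ⟨hwc, hwd⟩

end Vale.Agent.P032.H850
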